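import Vale.Agent.P262.Defs

/-!
# Steinitz constant and signed prefix constant of an arbitrary normed space (P262)

The definitions are those of the problem file with the Euclidean norm replaced by the norm of an
arbitrary real normed space `E`.
-/

open scoped ENNReal BigOperators

namespace Vale.Agent.P262.H691

/-- The sum of the first `k` vectors of the finite family `v`. -/
noncomputable def prefixSum {E : Type} [NormedAddCommGroup E] {N : ℕ} (v : Fin N → E) (k : ℕ) : E :=
  ∑ i : Fin N with i.val < k, v i

/-- The minimum over all orderings of the family `v` of the maximal norm of a partial sum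
(`0 ≤ k ≤ N`). -/
noncomputable def bestOrder {E : Type} [NormedAddCommGroup E] {N : ℕ} (v : Fin N → E) : ℝ≥0∞ :=
  ⨅ p : Equiv.Perm (Fin N), ⨆ k : Fin (N + 1), ‖prefixSum (fun i => v (p i)) k.val‖ₑ

/-- The Steinitz constant `S(E)`: supremum of `bestOrder v` over all finite zero-sum families `v`
in the closed unit ball of `E`. -/
noncomputable def steinitz (E : Type) [NormedAddCommGroup E] : ℝ≥0∞ :=
  ⨆ (N : ℕ) (v : Fin N → E) (_ : ∀ i, ‖v i‖ ≤ 1) (_ : ∑ i, v i = 0), bestOrder v

/-- The signed prefix constant `σ(E)`: the supremum over all finite sequences in the closed unit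
ball of `E` of the minimum over all sign sequences of the maximal norm of a signed partial sum. -/
noncomputable def signed (E : Type) [NormedAddCommGroup E] [NormedSpace ℝ E] : ℝ≥0∞ :=
  ⨆ (N : ℕ) (v : Fin N → E) (_ : ∀ i, ‖v i‖ ≤ 1),
    ⨅ ε : Fin N → ℤˣ, ⨆ k : Fin (N + 1), ‖prefixSum (fun i => ((ε i : ℤ) : ℝ) • v i) k.val‖ₑ

end Vale.Agent.P262.H691
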