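import Vale.Agent.P262.H691.Lower

/-!
# Lower bounds of order `√d` for `ℓ_p^d`, `2 ≤ p ≤ ∞`, from Sylvester matrices (P262)
-/

open scoped ENNReal BigOperators

namespace Vale.Agent.P262.H691

open Vale.Agent.P262.SqrtLower

section general

variable {E : Type} [NormedAddCommGroup E] [NormedSpace ℝ E] {n : ℕ}

/-- If `T : ℓ_2^n → E` maps the unit basis into the unit ball and does not decrease norms, then
`S(E) ≥ √n / 3`. -/
theorem steinitz_ge_of_map (hn : 1 ≤ n) (T : EuclideanSpace ℝ (Fin n) →ₗ[ℝ] E)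
    (h1 : ∀ i, ‖T (EuclideanSpace.single i (1 : ℝ))‖ ≤ 1) (h2 : ∀ z, ‖z‖ ≤ ‖T z‖) :
    ENNReal.ofReal (Real.sqrt n / 3) ≤ steinitz E := by
  have hn0 : (0 : ℝ) < n := by exact_mod_cast hn
  unfold steinitz
  refine le_iSup_of_le (n + n) (le_iSup_of_le (fun i => T (fam n i))
    (le_iSup_of_le ?_ (le_iSup_of_le ?_ ?_)))
  · intro i
    refine Fin.addCases (fun j => ?_) (fun j => ?_) i
    · show ‖T (fam n (Fin.castAdd n j))‖ ≤ 1
      rw [fam_left]; exact h1 j
    · have e : (WithLp.toLp 2 (fun _ => -(1 / (n : ℝ))) : EuclideanSpace ℝ (Fin n))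
          = (-(1 / (n : ℝ))) • ∑ j : Fin n, EuclideanSpace.single j (1 : ℝ) := by
        ext k
        simp [Finset.sum_apply]
      show ‖T (fam n (Fin.natAdd n j))‖ ≤ 1
      rw [fam_right, e, map_smul, norm_smul, map_sum, norm_neg, Real.norm_eq_abs,
        abs_of_pos (by positivity)]
      have h3 : ‖∑ j : Fin n, T (EuclideanSpace.single j (1 : ℝ))‖ ≤ n := by
        refine (norm_sum_le _ _).trans ((Finset.sum_le_sum fun j _ => h1 j).trans ?_)
        simp
      calc 1 / (n : ℝ) * _ ≤ 1 / (n : ℝ) * n := mul_le_mul_of_nonneg_left h3 (by positivity)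
        _ = 1 := by field_simp
  · rw [← map_sum, sum_fam hn, map_zero]
  unfold bestOrder
  refine le_iInf fun π => ?_
  obtain ⟨k, hk⟩ := exists_large hn π
  refine le_iSup_of_le k ?_
  rw [← ofReal_norm]
  apply ENNReal.ofReal_le_ofReal
  rw [← map_prefixSum T (fun i => fam n (π i)) k.val]
  exact hk.trans (h2 _)

/-- Under the same hypothesis, `σ(E) ≥ √n`. -/
theorem signed_ge_of_map (T : EuclideanSpace ℝ (Fin n) →ₗ[ℝ] E)
    (h1 : ∀ i, ‖T (EuclideanSpace.single i (1 : ℝ))‖ ≤ 1) (h2 : ∀ z, ‖z‖ ≤ ‖T z‖) :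
    ENNReal.ofReal (Real.sqrt n) ≤ signed E := by
  unfold signed
  let v : Fin n → EuclideanSpace ℝ (Fin n) := fun i => EuclideanSpace.single i 1
  refine le_iSup_of_le n (le_iSup_of_le (fun i => T (v i)) (le_iSup_of_le h1 ?_))
  refine le_iInf fun e => le_iSup_of_le (Fin.last n) ?_
  rw [← ofReal_norm]
  apply ENNReal.ofReal_le_ofReal
  have e0 : prefixSum (fun i => ((e i : ℤ) : ℝ) • T (v i)) (Fin.last n).val
      = T (prefixSum (fun i => ((e i : ℤ) : ℝ) • v i) (Fin.last n).val) := by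
    rw [map_prefixSum]
    simp only [map_smul]
  rw [e0]
  refine le_trans ?_ (h2 _)
  apply Real.sqrt_le_iff.2
  refine ⟨norm_nonneg _, ?_⟩
  rw [EuclideanSpace.norm_sq_eq]
  have h1 : ∀ j : Fin n, ‖(prefixSum (fun i => (((e i : ℤˣ) : ℤ) : ℝ) • v i)
      (Fin.last n).val) j‖ ^ 2 = 1 := by
    intro j
    have h2 : (prefixSum (fun i => (((e i : ℤˣ) : ℤ) : ℝ) • v i) (Fin.last n).val) j
        = ((e j : ℤˣ) : ℤ) := by
      unfold prefixSum
      have h3 : (Finset.univ.filter fun i : Fin n => i.val < (Fin.last n).val) = Finset.univ := by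
        apply Finset.filter_true_of_mem
        intro i _
        exact i.2
      rw [h3]
      simp only [WithLp.ofLp_sum, WithLp.ofLp_smul, Finset.sum_apply, Pi.smul_apply, v]
      rw [Finset.sum_eq_single j]
      · simp
      · intro i _ hij
        simp [Ne.symm hij]
      · intro h; exact absurd (Finset.mem_univ j) h
    rw [h2]
    rcases Int.units_eq_one_or (e j) with h | h <;> simp [h]
  rw [Finset.sum_congr rfl (fun j _ => h1 j)]
  simp

end general

/-- Sylvester matrix: `H x y = (-1)^{#{i : x_i = y_i = 1}}`. -/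
def syl {k : ℕ} (x y : Fin k → Bool) : ℝ := ∏ i, if x i && y i then (-1 : ℝ) else 1

lemma syl_abs {k : ℕ} (x y : Fin k → Bool) : |syl x y| = 1 := by
  unfold syl
  rw [Finset.abs_prod]
  apply Finset.prod_eq_one
  intro i _
  split_ifs <;> simp

lemma syl_orth {k : ℕ} (y y' : Fin k → Bool) :
    ∑ x, syl x y * syl x y' = if y = y' then (2 : ℝ) ^ k else 0 := by
  unfold syl
  simp only [← Finset.prod_mul_distrib]
  have h := Finset.prod_univ_sum (fun _ : Fin k => (Finset.univ : Finset Bool))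
    (fun i b => (if b && y i then (-1 : ℝ) else 1) * (if b && y' i then (-1 : ℝ) else 1))
  rw [Fintype.piFinset_univ] at h
  rw [← h]
  have h2 : ∀ i, ∑ b : Bool, ((if b && y i then (-1 : ℝ) else 1) *
      (if b && y' i then (-1 : ℝ) else 1)) = if y i = y' i then 2 else 0 := by
    intro i
    rw [Fintype.sum_bool]
    cases y i <;> cases y' i <;> norm_num
  simp only [h2]
  split_ifs with hy
  · subst hy
    simp
  · obtain ⟨i, hi⟩ := Function.ne_iff.1 hy
    exact Finset.prod_eq_zero (Finset.mem_univ i) (if_neg hi)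

/-- Padding by zeros `ℓ_p^n → ℓ_p^d`. -/
noncomputable def pad (p : ℝ≥0∞) [Fact (1 ≤ p)] (n d : ℕ) :
    PiLp p (fun _ : Fin n => ℝ) →ₗ[ℝ] PiLp p (fun _ : Fin d => ℝ) where
  toFun x := WithLp.toLp p (fun j : Fin d => if h : j.val < n then x ⟨j.val, h⟩ else 0)
  map_add' x y := by
    ext j
    by_cases h : j.val < n <;> simp [h]
  map_smul' a x := by
    ext j
    by_cases h : j.val < n <;> simp [h]

lemma pad_apply (p : ℝ≥0∞) [Fact (1 ≤ p)] {n d : ℕ} (x : PiLp p (fun _ : Fin n => ℝ))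
    (j : Fin d) : pad p n d x j = if h : j.val < n then x ⟨j.val, h⟩ else 0 := rfl

lemma norm_pad (p : ℝ≥0∞) [hp1 : Fact (1 ≤ p)] {n d : ℕ} (hnd : n ≤ d)
    (x : PiLp p (fun _ : Fin n => ℝ)) : ‖pad p n d x‖ = ‖x‖ := by
  by_cases ht : p = ∞
  · subst ht
    apply le_antisymm
    · rw [PiLp.norm_eq_ciSup]
      refine Real.iSup_le (fun j => ?_) (norm_nonneg _)
      rw [pad_apply]
      split_ifs with h
      · exact PiLp.norm_apply_le x _
      · simp
    · rw [PiLp.norm_eq_ciSup x]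
      refine Real.iSup_le (fun i => ?_) (norm_nonneg _)
      have h := PiLp.norm_apply_le (pad ∞ n d x) ⟨i.val, i.2.trans_le hnd⟩
      rw [pad_apply, dif_pos i.2] at h
      exact h
  · have h1 := toReal_ge_one hp1.out ht
    have h0 : 0 < p.toReal := by linarith
    rw [norm_lp p ht, norm_lp p ht]
    congr 1
    let g : ℕ → ℝ := fun j => if h : j < n then |x ⟨j, h⟩| ^ p.toReal else 0
    have e1 : ∑ j : Fin d, |pad p n d x j| ^ p.toReal = ∑ j : Fin d, g j.val := by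
      refine Finset.sum_congr rfl fun j _ => ?_
      rw [pad_apply]
      simp only [g]
      split_ifs with h
      · rfl
      · rw [abs_zero, Real.zero_rpow h0.ne']
    have e2 : ∑ i : Fin n, |x i| ^ p.toReal = ∑ i : Fin n, g i.val := by
      refine Finset.sum_congr rfl fun i _ => ?_
      simp only [g]
      rw [dif_pos i.2]
    rw [e1, e2, ← Finset.sum_range (fun j => g j), ← Finset.sum_range (fun j => g j)]
    symm
    refine Finset.sum_subset (Finset.range_mono hnd) fun j _ hj => ?_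
    simp only [g]
    rw [dif_neg (by simpa using hj)]

lemma steinitz_pad (p : ℝ≥0∞) [Fact (1 ≤ p)] {n d : ℕ} (hnd : n ≤ d) :
    steinitz (PiLp p (fun _ : Fin n => ℝ)) ≤ steinitz (PiLp p (fun _ : Fin d => ℝ)) := by
  have h := steinitz_le_of_map (pad p n d) (D := 1) zero_le_one
    (fun x => (norm_pad p hnd x).le) (fun x => by rw [one_mul, norm_pad p hnd])
  rwa [ENNReal.ofReal_one, one_mul] at h

lemma signed_pad (p : ℝ≥0∞) [Fact (1 ≤ p)] {n d : ℕ} (hnd : n ≤ d) :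
    signed (PiLp p (fun _ : Fin n => ℝ)) ≤ signed (PiLp p (fun _ : Fin d => ℝ)) := by
  have h := signed_le_of_map (pad p n d) (D := 1) zero_le_one
    (fun x => (norm_pad p hnd x).le) (fun x => by rw [one_mul, norm_pad p hnd])
  rwa [ENNReal.ofReal_one, one_mul] at h

/-- The normalised Sylvester matrix `ℓ_2^n → ℓ_p^n`, `n = 2^k`. -/
noncomputable def sylMap (p : ℝ≥0∞) [Fact (1 ≤ p)] (k : ℕ) (σ : Fin (2 ^ k) ≃ (Fin k → Bool)) :
    EuclideanSpace ℝ (Fin (2 ^ k)) →ₗ[ℝ] PiLp p (fun _ : Fin (2 ^ k) => ℝ) where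
  toFun z := WithLp.toLp p (fun j => (((2 ^ k : ℕ) : ℝ) ^ (1 / p.toReal))⁻¹ *
    ∑ i, z i * syl (σ j) (σ i))
  map_add' x y := by
    ext j
    simp only [PiLp.add_apply, add_mul, Finset.sum_add_distrib, mul_add]
  map_smul' a x := by
    ext j
    simp only [PiLp.smul_apply, smul_eq_mul, RingHom.id_apply, mul_assoc, ← Finset.mul_sum]
    ring

lemma sylMap_apply (p : ℝ≥0∞) [Fact (1 ≤ p)] (k : ℕ) (σ : Fin (2 ^ k) ≃ (Fin k → Bool))
    (z : EuclideanSpace ℝ (Fin (2 ^ k))) (j : Fin (2 ^ k)) :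
    sylMap p k σ z j = (((2 ^ k : ℕ) : ℝ) ^ (1 / p.toReal))⁻¹ * ∑ i, z i * syl (σ j) (σ i) := rfl

lemma norm_toE_syl (p : ℝ≥0∞) [Fact (1 ≤ p)] (k : ℕ) (σ : Fin (2 ^ k) ≃ (Fin k → Bool))
    (z : EuclideanSpace ℝ (Fin (2 ^ k))) :
    ‖toE p (2 ^ k) (sylMap p k σ z)‖ =
      (((2 ^ k : ℕ) : ℝ) ^ (1 / p.toReal))⁻¹ * Real.sqrt (2 ^ k : ℕ) * ‖z‖ := by
  have hA : 0 < (((2 ^ k : ℕ) : ℝ) ^ (1 / p.toReal))⁻¹ := by positivity
  set A := (((2 ^ k : ℕ) : ℝ) ^ (1 / p.toReal))⁻¹ with hAd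
  have h1 : ‖toE p (2 ^ k) (sylMap p k σ z)‖ ^ 2 = (A * Real.sqrt (2 ^ k : ℕ) * ‖z‖) ^ 2 := by
    rw [EuclideanSpace.norm_sq_eq, mul_pow, mul_pow, Real.sq_sqrt (Nat.cast_nonneg _),
      EuclideanSpace.norm_sq_eq]
    simp only [toE_apply, sylMap_apply, Real.norm_eq_abs, sq_abs, mul_pow]
    rw [← hAd, ← Finset.mul_sum]
    have h2 : ∑ j, (∑ i, z i * syl (σ j) (σ i)) ^ 2 = ((2 ^ k : ℕ) : ℝ) * ∑ i, z i ^ 2 := by
      have h3 : ∀ j, (∑ i, z i * syl (σ j) (σ i)) ^ 2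
          = ∑ i, ∑ i', (z i * z i') * (syl (σ j) (σ i) * syl (σ j) (σ i')) := by
        intro j
        rw [sq, Finset.sum_mul_sum]
        refine Finset.sum_congr rfl fun i _ => Finset.sum_congr rfl fun i' _ => ?_
        ring
      simp only [h3]
      rw [Finset.sum_comm]
      have h4 : ∀ i, ∑ j, ∑ i', (z i * z i') * (syl (σ j) (σ i) * syl (σ j) (σ i'))
          = z i ^ 2 * 2 ^ k := by
        intro i
        rw [Finset.sum_comm]
        have h5 : ∀ i', ∑ j, (z i * z i') * (syl (σ j) (σ i) * syl (σ j) (σ i'))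
            = if i = i' then z i ^ 2 * 2 ^ k else 0 := by
          intro i'
          rw [← Finset.mul_sum,
            Equiv.sum_comp σ (fun x => syl x (σ i) * syl x (σ i')), syl_orth]
          by_cases h : i = i'
          · subst h
            simp only [if_true]
            ring
          · rw [if_neg h, if_neg (fun h' => h (σ.injective h')), mul_zero]
        simp only [h5, Finset.sum_ite_eq, Finset.mem_univ, if_true]
      simp only [h4]
      rw [← Finset.sum_mul]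
      push_cast
      ring
    rw [h2]
    push_cast
    ring
  have h2 := norm_nonneg (toE p (2 ^ k) (sylMap p k σ z))
  have h3 : 0 ≤ A * Real.sqrt (2 ^ k : ℕ) * ‖z‖ := by positivity
  exact (pow_left_inj₀ h2 h3 (by norm_num)).1 h1

lemma syl_lower {p : ℝ≥0∞} [hp1 : Fact (1 ≤ p)] (hp : 2 ≤ p) (k : ℕ)
    (σ : Fin (2 ^ k) ≃ (Fin k → Bool)) (z : EuclideanSpace ℝ (Fin (2 ^ k))) :
    ‖z‖ ≤ ‖sylMap p k σ z‖ := by
  have h1 := ge2_b hp (sylMap p k σ z)
  rw [norm_toE_syl] at h1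
  have hn : (0 : ℝ) < ((2 ^ k : ℕ) : ℝ) := by positivity
  have e : (((2 ^ k : ℕ) : ℝ) ^ (1 / p.toReal))⁻¹ * Real.sqrt (2 ^ k : ℕ)
      = ((2 ^ k : ℕ) : ℝ) ^ (1 / 2 - 1 / p.toReal) := by
    rw [Real.sqrt_eq_rpow, ← Real.rpow_neg hn.le, ← Real.rpow_add hn]
    congr 1
    ring
  rw [e] at h1
  exact le_of_mul_le_mul_left h1 (by positivity)

lemma syl_unit {p : ℝ≥0∞} [hp1 : Fact (1 ≤ p)] (k : ℕ)
    (σ : Fin (2 ^ k) ≃ (Fin k → Bool)) (i : Fin (2 ^ k)) :
    ‖sylMap p k σ (EuclideanSpace.single i (1 : ℝ))‖ ≤ 1 := by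
  have hn : (0 : ℝ) < ((2 ^ k : ℕ) : ℝ) := by positivity
  have hn1 : (1 : ℝ) ≤ ((2 ^ k : ℕ) : ℝ) := by exact_mod_cast Nat.one_le_two_pow
  have h1 : ∀ j, |sylMap p k σ (EuclideanSpace.single i (1 : ℝ)) j|
      = (((2 ^ k : ℕ) : ℝ) ^ (1 / p.toReal))⁻¹ := by
    intro j
    rw [sylMap_apply, Finset.sum_eq_single i]
    · rw [abs_mul, PiLp.single_apply, if_pos rfl, one_mul, syl_abs, mul_one,
        abs_of_pos (by positivity)]
    · intro b _ hb
      rw [PiLp.single_apply, if_neg hb, zero_mul]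
    · intro h; exact absurd (Finset.mem_univ i) h
  by_cases ht : p = ∞
  · subst ht
    rw [PiLp.norm_eq_ciSup]
    refine Real.iSup_le (fun j => ?_) zero_le_one
    rw [Real.norm_eq_abs, h1 j, ENNReal.toReal_top, div_zero, Real.rpow_zero, inv_one]
  · have hp1' := toReal_ge_one hp1.out ht
    have h0 : 0 < p.toReal := by linarith
    rw [norm_lp p ht]
    simp only [h1]
    rw [Finset.sum_const, Finset.card_univ, Fintype.card_fin, nsmul_eq_mul, Real.inv_rpow
      (by positivity), ← Real.rpow_mul hn.le, one_div_mul_cancel h0.ne', Real.rpow_one,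
      mul_inv_cancel₀ hn.ne', Real.one_rpow]

/-- `√d / 5 ≤ S(ℓ_p^d)` and `√d / 2 ≤ σ(ℓ_p^d)` for `2 ≤ p ≤ ∞`. -/
theorem lower_ge2 {p : ℝ≥0∞} [hp1 : Fact (1 ≤ p)] (hp : 2 ≤ p) {d : ℕ} (hd : 1 ≤ d) :
    ENNReal.ofReal (1 / 6 * Real.sqrt d) ≤ steinitz (PiLp p (fun _ : Fin d => ℝ)) ∧
    ENNReal.ofReal (1 / 2 * Real.sqrt d) ≤ signed (PiLp p (fun _ : Fin d => ℝ)) := by
  obtain ⟨k, hk1, hk2⟩ : ∃ k : ℕ, 2 ^ k ≤ d ∧ d < 2 ^ (k + 1) :=
    ⟨Nat.log 2 d, Nat.pow_log_le_self 2 (by omega), Nat.lt_pow_succ_log_self (by norm_num) d⟩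
  obtain ⟨σ⟩ : Nonempty (Fin (2 ^ k) ≃ (Fin k → Bool)) := by
    refine Fintype.card_eq.1 ?_
    simp
  have hs : Real.sqrt d ≤ 2 * Real.sqrt (2 ^ k : ℕ) := by
    have h2 : (2 : ℝ) * Real.sqrt (2 ^ k : ℕ) = Real.sqrt (4 * (2 ^ k : ℕ)) := by
      rw [Real.sqrt_mul (by norm_num)]
      congr 1
      rw [show (4 : ℝ) = 2 ^ 2 by norm_num, Real.sqrt_sq (by norm_num)]
    rw [h2]
    apply Real.sqrt_le_sqrt
    have h3 : d ≤ 4 * 2 ^ k := by
      rw [pow_succ] at hk2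
      omega
    exact_mod_cast h3
  have h1 := steinitz_ge_of_map (n := 2 ^ k) Nat.one_le_two_pow (sylMap p k σ)
    (syl_unit k σ) (syl_lower hp k σ)
  have h2 := signed_ge_of_map (n := 2 ^ k) (sylMap p k σ) (syl_unit k σ) (syl_lower hp k σ)
  constructor
  · refine le_trans (ENNReal.ofReal_le_ofReal ?_) (h1.trans (steinitz_pad p hk1))
    linarith
  · refine le_trans (ENNReal.ofReal_le_ofReal ?_) (h2.trans (signed_pad p hk1))
    linarith

end Vale.Agent.P262.H691
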