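import Vale.Agent.P262.H691.Lower
import Vale.Agent.P262.H691.Hadamard
import Vale.Agent.P262.Bdl.B1

/-!
# Steinitz constants of `ℓ_p^d` and of all normed spaces: assembly (P262)
-/

open scoped ENNReal

namespace Vale.Agent.P262.H691

open Vale.Agent.P262 Vale.Agent.P262.Sqrt

/-- Steinitz constants and signed prefix constants of `ℓ_2^d` (the constants `S_2(d)` and `σ(d)` of
the problem), of all `ℓ_p^d`, and of all normed spaces at given Banach–Mazur distance from a
subspace of `ℓ_2^d`, with absolute constants `c, C > 0`. -/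
theorem steinitz_lp_order : ∃ c C : ℝ, 0 < c ∧ 0 < C ∧ ∀ d : ℕ, 1 ≤ d →
    -- (1) the two constants `S_2(d)` and `σ(d)` of the problem
    ((ENNReal.ofReal (c * Real.sqrt d) ≤ steinitzConst d ∧
        steinitzConst d ≤ ENNReal.ofReal (C * Real.sqrt d)) ∧
      (ENNReal.ofReal (Real.sqrt d) ≤ signedConst d ∧
        signedConst d ≤ ENNReal.ofReal (C * (Real.sqrt d * Real.log (d + 1))))) ∧
    -- (2) `ℓ_p^d` for `1 ≤ p ≤ 2`: both constants, the first one sharp
    (∀ (p : ℝ≥0∞) [Fact (1 ≤ p)], p ≤ 2 →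
      (ENNReal.ofReal (c * (d : ℝ) ^ (1 / p.toReal)) ≤ steinitz (PiLp p (fun _ : Fin d => ℝ)) ∧
        steinitz (PiLp p (fun _ : Fin d => ℝ)) ≤ ENNReal.ofReal (C * (d : ℝ) ^ (1 / p.toReal))) ∧
      (ENNReal.ofReal ((d : ℝ) ^ (1 / p.toReal)) ≤ signed (PiLp p (fun _ : Fin d => ℝ)) ∧
        signed (PiLp p (fun _ : Fin d => ℝ)) ≤
          ENNReal.ofReal (C * ((d : ℝ) ^ (1 / p.toReal) * Real.log (d + 1))))) ∧
    -- (3) `ℓ_p^d` for `2 ≤ p ≤ ∞` (for `p = ∞` the exponent `1 - 1 / p.toReal` is `1`)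
    (∀ (p : ℝ≥0∞) [Fact (1 ≤ p)], 2 ≤ p →
      (ENNReal.ofReal (c * Real.sqrt d) ≤ steinitz (PiLp p (fun _ : Fin d => ℝ)) ∧
        steinitz (PiLp p (fun _ : Fin d => ℝ)) ≤
          ENNReal.ofReal (C * (d : ℝ) ^ (1 - 1 / p.toReal))) ∧
      (ENNReal.ofReal (c * Real.sqrt d) ≤ signed (PiLp p (fun _ : Fin d => ℝ)) ∧
        signed (PiLp p (fun _ : Fin d => ℝ)) ≤
          ENNReal.ofReal (C * ((d : ℝ) ^ (1 - 1 / p.toReal) * Real.log (d + 1))))) ∧
    -- (4) every normed space at distance at most `D` from a subspace of `ℓ_2^d`, and families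
    -- with arbitrary sum
    (∀ (E : Type) [NormedAddCommGroup E] [NormedSpace ℝ E]
        (T : E →ₗ[ℝ] EuclideanSpace ℝ (Fin d)) (D : ℝ), 0 ≤ D →
        (∀ x, ‖T x‖ ≤ ‖x‖ ∧ ‖x‖ ≤ D * ‖T x‖) →
      steinitz E ≤ ENNReal.ofReal (C * D * Real.sqrt d) ∧
      signed E ≤ ENNReal.ofReal (C * D * (Real.sqrt d * Real.log (d + 1))) ∧
      ∀ (N : ℕ) (v : Fin N → E), (∀ i, ‖v i‖ ≤ 1) → ∃ π : Equiv.Perm (Fin N), ∀ k : ℕ, k ≤ N →
        ‖prefixSum (fun i => v (π i)) k - ((k : ℝ) / N) • ∑ i, v i‖ ≤ C * D * Real.sqrt d) := by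
  obtain ⟨c, hc, hlow⟩ := SqrtLower.lower
  have hstage : StageProp := stage_of_tool toolProp
  obtain ⟨C, hC, hup⟩ := final_of_core eigenProp
    (coreProp (nodeProp hstage tiltProp updateProp) potProp schedProp)
  obtain ⟨C', hC', hsig⟩ := Vale.Agent.P262.Sig.sigma_sqrt_log
  -- one constant for all upper bounds
  obtain ⟨K, hK, hK1, hK2⟩ : ∃ K : ℝ, 0 < K ∧ C ≤ K ∧ C' ≤ K :=
    ⟨C + 1 + C', by linarith, by linarith, by linarith⟩
  have hlog : ∀ d : ℕ, 0 ≤ Real.log ((d : ℝ) + 1) := fun d =>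
    Real.log_nonneg (by have : (0 : ℝ) ≤ d := Nat.cast_nonneg d; linarith)
  have hS : ∀ d : ℕ, 1 ≤ d →
      steinitz (EuclideanSpace ℝ (Fin d)) ≤ ENNReal.ofReal (K * Real.sqrt d) := fun d hd =>
    (hup d hd).trans (ENNReal.ofReal_le_ofReal
      (mul_le_mul_of_nonneg_right hK1 (Real.sqrt_nonneg _)))
  have hG : ∀ d : ℕ, 1 ≤ d → signed (EuclideanSpace ℝ (Fin d)) ≤
      ENNReal.ofReal (K * (Real.sqrt d * Real.log (d + 1))) := fun d hd =>
    (hsig d hd).2.trans (ENNReal.ofReal_le_ofReal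
      (mul_le_mul_of_nonneg_right hK2 (mul_nonneg (Real.sqrt_nonneg _) (hlog d))))
  have h2K : K ≤ 2 * K := by linarith
  refine ⟨min c (1 / 9), 2 * K, by positivity, by positivity, fun d hd => ?_⟩
  have hd0 : (0 : ℝ) < d := by exact_mod_cast hd
  refine ⟨⟨⟨?_, ?_⟩, (hsig d hd).1, ?_⟩, ?_, ?_, ?_⟩
  · refine le_trans (ENNReal.ofReal_le_ofReal ?_) (hlow d hd)
    exact mul_le_mul_of_nonneg_right (min_le_left _ _) (Real.sqrt_nonneg _)
  · exact (hS d hd).trans (ENNReal.ofReal_le_ofReal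
      (mul_le_mul_of_nonneg_right h2K (Real.sqrt_nonneg _)))
  · exact (hG d hd).trans (ENNReal.ofReal_le_ofReal
      (mul_le_mul_of_nonneg_right h2K (mul_nonneg (Real.sqrt_nonneg _) (hlog d))))
  · intro p hp1 hp
    have e : (d : ℝ) ^ (1 / p.toReal - 1 / 2) * Real.sqrt d = (d : ℝ) ^ (1 / p.toReal) := by
      rw [Real.sqrt_eq_rpow, ← Real.rpow_add hd0]
      congr 1
      ring
    refine ⟨⟨?_, ?_⟩, signed_lp_lower hp, ?_⟩
    · refine le_trans (ENNReal.ofReal_le_ofReal ?_) (steinitz_lp_lower hp hd)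
      exact mul_le_mul_of_nonneg_right (min_le_right _ _) (by positivity)
    · refine (steinitz_le2 hp).trans ((mul_le_mul_right (hS d hd) _).trans ?_)
      rw [← ENNReal.ofReal_mul (by positivity)]
      apply ENNReal.ofReal_le_ofReal
      calc (d : ℝ) ^ (1 / p.toReal - 1 / 2) * (K * Real.sqrt d)
          = K * ((d : ℝ) ^ (1 / p.toReal - 1 / 2) * Real.sqrt d) := by ring
        _ = K * (d : ℝ) ^ (1 / p.toReal) := by rw [e]
        _ ≤ _ := mul_le_mul_of_nonneg_right h2K (by positivity)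
    · refine (signed_le2 hp).trans ((mul_le_mul_right (hG d hd) _).trans ?_)
      rw [← ENNReal.ofReal_mul (by positivity)]
      apply ENNReal.ofReal_le_ofReal
      calc (d : ℝ) ^ (1 / p.toReal - 1 / 2) * (K * (Real.sqrt d * Real.log (d + 1)))
          = K * (((d : ℝ) ^ (1 / p.toReal - 1 / 2) * Real.sqrt d) * Real.log (d + 1)) := by ring
        _ = K * ((d : ℝ) ^ (1 / p.toReal) * Real.log (d + 1)) := by rw [e]
        _ ≤ _ := mul_le_mul_of_nonneg_right h2K (mul_nonneg (by positivity) (hlog d))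
  · intro p hp1 hp
    have e : (d : ℝ) ^ (1 / 2 - 1 / p.toReal) * Real.sqrt d = (d : ℝ) ^ (1 - 1 / p.toReal) := by
      rw [Real.sqrt_eq_rpow, ← Real.rpow_add hd0]
      congr 1
      ring
    refine ⟨⟨?_, ?_⟩, ?_, ?_⟩
    · refine le_trans (ENNReal.ofReal_le_ofReal ?_) (lower_ge2 hp hd).1
      have h9 := min_le_right c (1 / 9 : ℝ)
      exact mul_le_mul_of_nonneg_right (h9.trans (by norm_num)) (Real.sqrt_nonneg _)
    · refine (steinitz_ge2 hd hp).trans ((mul_le_mul_right (hS d hd) _).trans ?_)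
      rw [← ENNReal.ofReal_mul (by positivity)]
      apply ENNReal.ofReal_le_ofReal
      calc (d : ℝ) ^ (1 / 2 - 1 / p.toReal) * (K * Real.sqrt d)
          = K * ((d : ℝ) ^ (1 / 2 - 1 / p.toReal) * Real.sqrt d) := by ring
        _ = K * (d : ℝ) ^ (1 - 1 / p.toReal) := by rw [e]
        _ ≤ _ := mul_le_mul_of_nonneg_right h2K (by positivity)
    · refine le_trans (ENNReal.ofReal_le_ofReal ?_) (lower_ge2 hp hd).2
      have h9 := min_le_right c (1 / 9 : ℝ)
      exact mul_le_mul_of_nonneg_right (h9.trans (by norm_num)) (Real.sqrt_nonneg _)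
    · refine (signed_ge2 hd hp).trans ((mul_le_mul_right (hG d hd) _).trans ?_)
      rw [← ENNReal.ofReal_mul (by positivity)]
      apply ENNReal.ofReal_le_ofReal
      calc (d : ℝ) ^ (1 / 2 - 1 / p.toReal) * (K * (Real.sqrt d * Real.log (d + 1)))
          = K * (((d : ℝ) ^ (1 / 2 - 1 / p.toReal) * Real.sqrt d) * Real.log (d + 1)) := by ring
        _ = K * ((d : ℝ) ^ (1 - 1 / p.toReal) * Real.log (d + 1)) := by rw [e]
        _ ≤ _ := mul_le_mul_of_nonneg_right h2K (mul_nonneg (by positivity) (hlog d))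
  · intro E _ _ T D hD hT
    have h1 : steinitz E ≤ ENNReal.ofReal (K * D * Real.sqrt d) := by
      refine (steinitz_le_of_map T hD (fun x => (hT x).1) (fun x => (hT x).2)).trans
        ((mul_le_mul_right (hS d hd) _).trans ?_)
      rw [← ENNReal.ofReal_mul hD]
      apply ENNReal.ofReal_le_ofReal
      exact le_of_eq (by ring)
    refine ⟨?_, ?_, ?_⟩
    · refine h1.trans (ENNReal.ofReal_le_ofReal ?_)
      exact mul_le_mul_of_nonneg_right (mul_le_mul_of_nonneg_right h2K hD) (Real.sqrt_nonneg _)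
    · refine (signed_le_of_map T hD (fun x => (hT x).1) (fun x => (hT x).2)).trans
        ((mul_le_mul_right (hG d hd) _).trans ?_)
      rw [← ENNReal.ofReal_mul hD]
      apply ENNReal.ofReal_le_ofReal
      calc D * (K * (Real.sqrt d * Real.log (d + 1)))
          = K * (D * (Real.sqrt d * Real.log (d + 1))) := by ring
        _ ≤ 2 * K * (D * (Real.sqrt d * Real.log (d + 1))) :=
          mul_le_mul_of_nonneg_right h2K
            (mul_nonneg hD (mul_nonneg (Real.sqrt_nonneg _) (hlog d)))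
        _ = _ := by ring
    · intro N v hv
      obtain ⟨π, hπ⟩ := order_of_steinitz
        (mul_nonneg (mul_nonneg hK.le hD) (Real.sqrt_nonneg _)) h1 v hv
      exact ⟨π, fun k hk => (hπ k hk).trans (le_of_eq (by ring))⟩

end Vale.Agent.P262.H691
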