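import Vale.Agent.P262.H691.Main
import Vale.Agent.P262.Bdl.B2

/-!
# Lower bounds for the constants of `ℓ_p^d`, `1 ≤ p ≤ 2` (P262)
-/

open scoped ENNReal BigOperators

namespace Vale.Agent.P262.H691

open Vale.Agent.P262.SqrtLower

variable {d : ℕ}

/-- Transport of a vector of `ℓ_2^d` to `ℓ_p^d`. -/
noncomputable def toP (p : ℝ≥0∞) (x : EuclideanSpace ℝ (Fin d)) : PiLp p (fun _ : Fin d => ℝ) :=
  WithLp.toLp p (fun i => x i)

lemma toE_toP (p : ℝ≥0∞) [Fact (1 ≤ p)] (x : EuclideanSpace ℝ (Fin d)) :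
    toE p d (toP p x) = x := rfl

lemma toP_apply (p : ℝ≥0∞) (x : EuclideanSpace ℝ (Fin d)) (i : Fin d) : toP p x i = x i := rfl

lemma toE_inj (p : ℝ≥0∞) [Fact (1 ≤ p)] {x y : PiLp p (fun _ : Fin d => ℝ)}
    (h : toE p d x = toE p d y) : x = y := by
  ext i
  have := congrArg (fun z : EuclideanSpace ℝ (Fin d) => z i) h
  simpa only [toE_apply] using this

lemma prefix_toP (p : ℝ≥0∞) [Fact (1 ≤ p)] {N : ℕ} (v : Fin N → EuclideanSpace ℝ (Fin d))
    (k : ℕ) : toE p d (prefixSum (fun i => toP p (v i)) k) = prefixSum v k := by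
  rw [map_prefixSum]
  rfl

/-- `‖x‖_p ≥ A^(1/p)` when `∑ |x_i|^p ≥ A`. -/
lemma norm_ge_of {p : ℝ≥0∞} [hp1 : Fact (1 ≤ p)] (hp : p ≤ 2) (x : PiLp p (fun _ : Fin d => ℝ))
    {A : ℝ} (hA : 0 ≤ A) (h : A ≤ ∑ i, |x i| ^ p.toReal) : A ^ (1 / p.toReal) ≤ ‖x‖ := by
  rw [norm_lp p (ne_top_of_le_two hp)]
  exact Real.rpow_le_rpow hA h (by positivity)

/-- For vectors with coordinates in `[-1,1]`, `∑ |x_i|^p ≥ ‖x‖_2²`. -/
lemma sum_ge_sq {p : ℝ≥0∞} (hp : p ≤ 2) (x : Fin d → ℝ) (hx : ∀ i, |x i| ≤ 1)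
    (hp0 : 0 < p.toReal) :
    ∑ i, |x i| ^ 2 ≤ ∑ i, |x i| ^ p.toReal := by
  refine Finset.sum_le_sum fun i _ => ?_
  rw [← Real.rpow_two]
  rcases eq_or_lt_of_le (abs_nonneg (x i)) with h0 | h0
  · rw [← h0, Real.zero_rpow (by norm_num), Real.zero_rpow hp0.ne']
  · exact Real.rpow_le_rpow_of_exponent_ge h0 (hx i) (toReal_le_two hp)

lemma norm_toP_fam_le {p : ℝ≥0∞} [hp1 : Fact (1 ≤ p)] (hp : p ≤ 2) (hd : 1 ≤ d)
    (i : Fin (d + d)) : ‖toP p (fam d i)‖ ≤ 1 := by
  have hd0 : (0 : ℝ) < d := by exact_mod_cast hd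
  have ht := ne_top_of_le_two hp
  have h1 := toReal_ge_one hp1.out ht
  have h0 : 0 < p.toReal := by linarith
  rw [norm_lp p ht]
  refine Real.rpow_le_one (Finset.sum_nonneg fun i _ => Real.rpow_nonneg (abs_nonneg _) _) ?_
    (by positivity)
  simp only [toP_apply]
  refine Fin.addCases (fun j => ?_) (fun j => ?_) i
  · rw [fam_left]
    rw [Finset.sum_eq_single j]
    · simp
    · intro b _ hb
      simp [hb, Real.zero_rpow h0.ne']
    · intro h; exact absurd (Finset.mem_univ j) h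
  · rw [fam_right]
    have h2 : ∀ c : Fin d, |(WithLp.toLp 2 (fun _ : Fin d => -(1 / (d : ℝ)))) c| ^ p.toReal
        ≤ 1 / d := by
      intro c
      show |(-(1 / (d : ℝ)))| ^ p.toReal ≤ 1 / d
      rw [abs_neg, abs_of_pos (by positivity)]
      have h3 : 1 / (d : ℝ) ≤ 1 := by
        rw [div_le_one hd0]; exact_mod_cast hd
      calc (1 / (d : ℝ)) ^ p.toReal ≤ (1 / (d : ℝ)) ^ (1 : ℝ) :=
            Real.rpow_le_rpow_of_exponent_ge (by positivity) h3 h1
        _ = _ := Real.rpow_one _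
    refine (Finset.sum_le_sum fun c _ => h2 c).trans ?_
    rw [Finset.sum_const, Finset.card_univ, Fintype.card_fin, nsmul_eq_mul,
      mul_one_div_cancel hd0.ne']

lemma abs_partial_le (hd : 1 ≤ d) (π : Equiv.Perm (Fin (d + d))) (k : ℕ) (c : Fin d) :
    |(partialSum (fun i => fam d (π i)) k) c| ≤ 1 := by
  have hd0 : (0 : ℝ) < d := by exact_mod_cast hd
  rw [partial_coord]
  have h1 : ((Finset.univ.filter (fun j : Fin d => (π.symm (Fin.natAdd d j)).val < k)).card : ℝ)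
      / d ≤ 1 := by
    rw [div_le_one hd0]
    have := Finset.card_filter_le (Finset.univ : Finset (Fin d))
      (fun j : Fin d => (π.symm (Fin.natAdd d j)).val < k)
    rw [Finset.card_univ, Fintype.card_fin] at this
    exact_mod_cast this
  have h2 : 0 ≤ ((Finset.univ.filter (fun j : Fin d =>
      (π.symm (Fin.natAdd d j)).val < k)).card : ℝ) / d := by positivity
  rw [abs_le]
  split_ifs <;> constructor <;> linarith

/-- `d^(1/p) / 9 ≤ S(ℓ_p^d)` for `1 ≤ p ≤ 2`. -/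
theorem steinitz_lp_lower {p : ℝ≥0∞} [hp1 : Fact (1 ≤ p)] (hp : p ≤ 2) (hd : 1 ≤ d) :
    ENNReal.ofReal (1 / 9 * (d : ℝ) ^ (1 / p.toReal)) ≤
      steinitz (PiLp p (fun _ : Fin d => ℝ)) := by
  have ht := ne_top_of_le_two hp
  have h1 := toReal_ge_one hp1.out ht
  have h0 : 0 < p.toReal := by linarith
  unfold steinitz
  refine le_iSup_of_le (d + d) (le_iSup_of_le (fun i => toP p (fam d i))
    (le_iSup_of_le (norm_toP_fam_le hp hd) (le_iSup_of_le ?_ ?_)))
  · apply toE_inj p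
    rw [map_sum, map_zero]
    simp only [toE_toP]
    exact sum_fam hd
  unfold bestOrder
  refine le_iInf fun π => ?_
  obtain ⟨k, hk⟩ := exists_large hd π
  refine le_iSup_of_le k ?_
  rw [← ofReal_norm]
  apply ENNReal.ofReal_le_ofReal
  set y := prefixSum (fun i => toP p (fam d (π i))) k.val with hy
  have hy1 : toE p d y = partialSum (fun i => fam d (π i)) k.val :=
    prefix_toP p (fun i => fam d (π i)) k.val
  have hc : ∀ i, y i = (partialSum (fun i => fam d (π i)) k.val) i := by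
    intro i
    rw [← toE_apply p y i, hy1]
  have h3 : (d : ℝ) / 9 ≤ ∑ i, |y i| ^ 2 := by
    have h4 : ‖partialSum (fun i => fam d (π i)) k.val‖ ^ 2 = ∑ i, |y i| ^ 2 := by
      rw [EuclideanSpace.norm_sq_eq]
      refine Finset.sum_congr rfl fun i _ => ?_
      rw [Real.norm_eq_abs, hc]
    rw [← h4]
    have h5 := pow_le_pow_left₀ (by positivity) hk 2
    rw [div_pow, Real.sq_sqrt (Nat.cast_nonneg d)] at h5
    norm_num at h5
    linarith
  have h6 := norm_ge_of hp y (A := (d : ℝ) / 9) (by positivity)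
    (h3.trans (sum_ge_sq hp (fun i => y i) (fun i => by rw [hc]; exact abs_partial_le hd π _ i) h0))
  refine le_trans ?_ h6
  rw [Real.div_rpow (Nat.cast_nonneg d) (by norm_num)]
  have h7 : (9 : ℝ) ^ (1 / p.toReal) ≤ 9 := by
    calc (9 : ℝ) ^ (1 / p.toReal) ≤ (9 : ℝ) ^ (1 : ℝ) :=
          Real.rpow_le_rpow_of_exponent_le (by norm_num) ((div_le_one h0).2 h1)
      _ = 9 := Real.rpow_one _
  have h8 : 0 < (9 : ℝ) ^ (1 / p.toReal) := by positivity
  rw [one_div, inv_mul_eq_div]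
  exact div_le_div_of_nonneg_left (by positivity) h8 h7

/-- `d^(1/p) ≤ σ(ℓ_p^d)` for `1 ≤ p ≤ 2`. -/
theorem signed_lp_lower {p : ℝ≥0∞} [hp1 : Fact (1 ≤ p)] (hp : p ≤ 2) :
    ENNReal.ofReal ((d : ℝ) ^ (1 / p.toReal)) ≤ signed (PiLp p (fun _ : Fin d => ℝ)) := by
  have ht := ne_top_of_le_two hp
  have h1 := toReal_ge_one hp1.out ht
  have h0 : 0 < p.toReal := by linarith
  unfold signed
  let v : Fin d → PiLp p (fun _ : Fin d => ℝ) := fun i => PiLp.single p i (1 : ℝ)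
  refine le_iSup_of_le d (le_iSup_of_le v (le_iSup_of_le (fun i => by simp [v]) ?_))
  refine le_iInf fun e => le_iSup_of_le (Fin.last d) ?_
  rw [← ofReal_norm]
  apply ENNReal.ofReal_le_ofReal
  apply norm_ge_of hp _ (Nat.cast_nonneg d)
  have h1 : ∀ j : Fin d, |(prefixSum (fun i => (((e i : ℤˣ) : ℤ) : ℝ) • v i)
      (Fin.last d).val) j| ^ p.toReal = 1 := by
    intro j
    have h2 : (prefixSum (fun i => (((e i : ℤˣ) : ℤ) : ℝ) • v i) (Fin.last d).val) j
        = ((e j : ℤˣ) : ℤ) := by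
      unfold prefixSum
      have h3 : (Finset.univ.filter fun i : Fin d => i.val < (Fin.last d).val) = Finset.univ := by
        apply Finset.filter_true_of_mem
        intro i _
        exact i.2
      rw [h3]
      simp only [WithLp.ofLp_sum, WithLp.ofLp_smul, Finset.sum_apply, Pi.smul_apply, v]
      rw [Finset.sum_eq_single j]
      · simp
      · intro i _ hij
        simp [Ne.symm hij]
      · intro h; exact absurd (Finset.mem_univ j) h
    rw [h2]
    rcases Int.units_eq_one_or (e j) with h | h <;> simp [h]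
  rw [Finset.sum_congr rfl (fun j _ => h1 j)]
  simp

end Vale.Agent.P262.H691
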