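import Vale.Agent.P262.H691.Defs

/-!
# Transfer of Steinitz and signed prefix constants between normed spaces (P262)
-/

open scoped ENNReal BigOperators

namespace Vale.Agent.P262.H691

lemma steinitz_euclid (d : ℕ) :
    steinitz (EuclideanSpace ℝ (Fin d)) = steinitzConst d := rfl

lemma signed_euclid (d : ℕ) :
    signed (EuclideanSpace ℝ (Fin d)) = signedConst d := rfl

section transfer

variable {E F : Type} [NormedAddCommGroup E] [NormedSpace ℝ E] [NormedAddCommGroup F]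
  [NormedSpace ℝ F]

lemma map_prefixSum (T : E →ₗ[ℝ] F) {N : ℕ} (v : Fin N → E) (k : ℕ) :
    T (prefixSum v k) = prefixSum (fun i => T (v i)) k := by
  unfold prefixSum
  exact map_sum T _ _

/-- The enorm inequality attached to `‖x‖ ≤ D ‖T x‖`. -/
lemma enorm_le_of (T : E →ₗ[ℝ] F) {D : ℝ} (hD : 0 ≤ D) (h : ∀ x, ‖x‖ ≤ D * ‖T x‖) (x : E) :
    ‖x‖ₑ ≤ ENNReal.ofReal D * ‖T x‖ₑ := by
  rw [← ofReal_norm, ← ofReal_norm, ← ENNReal.ofReal_mul hD]
  exact ENNReal.ofReal_le_ofReal (h x)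

lemma bestOrder_le_of_map (T : E →ₗ[ℝ] F) {D : ℝ} (hD : 0 ≤ D) (h : ∀ x, ‖x‖ ≤ D * ‖T x‖)
    {N : ℕ} (v : Fin N → E) :
    bestOrder v ≤ ENNReal.ofReal D * bestOrder (fun i => T (v i)) := by
  unfold bestOrder
  obtain ⟨p, hp⟩ := exists_eq_ciInf_of_finite
    (f := fun p : Equiv.Perm (Fin N) =>
      ⨆ k : Fin (N + 1), ‖prefixSum (fun i => T (v (p i))) k.val‖ₑ)
  rw [← hp]
  refine iInf_le_of_le p (iSup_le fun k => ?_)
  refine (enorm_le_of T hD h _).trans ?_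
  rw [map_prefixSum]
  exact mul_le_mul_right (le_iSup (fun k : Fin (N + 1) =>
    ‖prefixSum (fun i => T (v (p i))) k.val‖ₑ) k) _

/-- Transfer of the Steinitz constant. -/
lemma steinitz_le_of_map (T : E →ₗ[ℝ] F) {D : ℝ} (hD : 0 ≤ D) (h1 : ∀ x, ‖T x‖ ≤ ‖x‖)
    (h : ∀ x, ‖x‖ ≤ D * ‖T x‖) : steinitz E ≤ ENNReal.ofReal D * steinitz F := by
  unfold steinitz
  refine iSup_le fun N => iSup_le fun v => iSup_le fun hv => iSup_le fun hs => ?_
  refine (bestOrder_le_of_map T hD h v).trans (mul_le_mul_right ?_ _)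
  refine le_iSup_of_le N (le_iSup_of_le (fun i => T (v i)) (le_iSup_of_le
    (fun i => (h1 _).trans (hv i)) (le_iSup_of_le ?_ le_rfl)))
  rw [← map_sum, hs, map_zero]

/-- Transfer of the signed prefix constant. -/
lemma signed_le_of_map (T : E →ₗ[ℝ] F) {D : ℝ} (hD : 0 ≤ D) (h1 : ∀ x, ‖T x‖ ≤ ‖x‖)
    (h : ∀ x, ‖x‖ ≤ D * ‖T x‖) : signed E ≤ ENNReal.ofReal D * signed F := by
  unfold signed
  refine iSup_le fun N => iSup_le fun v => iSup_le fun hv => ?_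
  obtain ⟨e, he⟩ := exists_eq_ciInf_of_finite
    (f := fun e : Fin N → ℤˣ => ⨆ k : Fin (N + 1),
      ‖prefixSum (fun i => ((e i : ℤ) : ℝ) • T (v i)) k.val‖ₑ)
  refine iInf_le_of_le e (iSup_le fun k => ?_)
  refine (enorm_le_of T hD h _).trans ?_
  refine mul_le_mul_right ?_ _
  refine le_iSup_of_le N (le_iSup_of_le (fun i => T (v i)) (le_iSup_of_le
    (fun i => (h1 _).trans (hv i)) ?_))
  rw [← he, map_prefixSum]
  simp only [map_smul]
  exact le_iSup (fun k : Fin (N + 1) =>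
    ‖prefixSum (fun i => ((e i : ℤ) : ℝ) • T (v i)) k.val‖ₑ) k

/-- Families with arbitrary sum: the partial sums follow the segment `[0, ∑ v]`. -/
lemma order_of_steinitz {R : ℝ} (hR : 0 ≤ R) (h : steinitz E ≤ ENNReal.ofReal R) {N : ℕ}
    (v : Fin N → E) (hv : ∀ i, ‖v i‖ ≤ 1) :
    ∃ p : Equiv.Perm (Fin N), ∀ k : ℕ, k ≤ N →
      ‖prefixSum (fun i => v (p i)) k - ((k : ℝ) / N) • ∑ i, v i‖ ≤ 2 * R := by
  rcases Nat.eq_zero_or_pos N with h0 | h0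
  · subst h0
    refine ⟨1, fun k _ => ?_⟩
    simp only [prefixSum, Finset.univ_eq_empty, Finset.filter_empty, Finset.sum_empty, smul_zero,
      sub_zero, norm_zero]
    linarith
  have hN : (0 : ℝ) < N := by exact_mod_cast h0
  set s : E := ∑ i, v i with hs
  have hsn : ‖s‖ ≤ N := by
    rw [hs]
    refine (norm_sum_le _ _).trans ((Finset.sum_le_sum fun i _ => hv i).trans ?_)
    simp
  set w : Fin N → E := fun i => (1 / 2 : ℝ) • (v i - (1 / (N : ℝ)) • s) with hw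
  have hw1 : ∀ i, ‖w i‖ ≤ 1 := by
    intro i
    rw [hw]
    simp only
    rw [norm_smul]
    have h2 : ‖v i - (1 / (N : ℝ)) • s‖ ≤ 2 := by
      refine (norm_sub_le _ _).trans ?_
      rw [norm_smul, Real.norm_eq_abs, abs_of_pos (by positivity)]
      have h3 : 1 / (N : ℝ) * ‖s‖ ≤ 1 := by
        rw [one_div, inv_mul_le_iff₀ hN]
        linarith
      linarith [hv i]
    rw [Real.norm_eq_abs, abs_of_pos (by norm_num)]
    linarith
  have hw2 : ∑ i, w i = 0 := by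
    simp only [hw]
    rw [← Finset.smul_sum, Finset.sum_sub_distrib, ← hs, Finset.sum_const, Finset.card_univ,
      Fintype.card_fin, ← Nat.cast_smul_eq_nsmul ℝ, smul_smul, mul_one_div_cancel hN.ne',
      one_smul, sub_self, smul_zero]
  have h1 : bestOrder w ≤ ENNReal.ofReal R := by
    refine le_trans ?_ h
    unfold steinitz
    exact le_iSup_of_le N (le_iSup_of_le w (le_iSup_of_le hw1 (le_iSup_of_le hw2 le_rfl)))
  unfold bestOrder at h1
  obtain ⟨p, hp⟩ := exists_eq_ciInf_of_finite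
    (f := fun p : Equiv.Perm (Fin N) =>
      ⨆ k : Fin (N + 1), ‖prefixSum (fun i => w (p i)) k.val‖ₑ)
  rw [← hp] at h1
  refine ⟨p, fun k hk => ?_⟩
  have h2 : ‖prefixSum (fun i => w (p i)) k‖ₑ ≤ ENNReal.ofReal R :=
    (le_iSup (fun k : Fin (N + 1) => ‖prefixSum (fun i => w (p i)) k.val‖ₑ)
      ⟨k, by omega⟩).trans h1
  rw [← ofReal_norm, ENNReal.ofReal_le_ofReal_iff hR] at h2
  have hcard : (Finset.univ.filter fun i : Fin N => i.val < k).card = k := by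
    have h4 : (Finset.univ.filter fun i : Fin N => i.val < k).card
        = (Finset.range k).card := by
      refine Finset.card_bij (fun (i : Fin N) _ => i.val) ?_ ?_ ?_
      · intro i hi
        simpa using hi
      · intro i _ j _ hij
        exact Fin.ext hij
      · intro j hj
        have hj' : j < k := by simpa using hj
        exact ⟨⟨j, by omega⟩, by simpa using hj', rfl⟩
    rw [h4, Finset.card_range]
  have h3 : prefixSum (fun i => w (p i)) k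
      = (1 / 2 : ℝ) • (prefixSum (fun i => v (p i)) k - ((k : ℝ) / N) • s) := by
    unfold prefixSum
    simp only [hw]
    rw [← Finset.smul_sum, Finset.sum_sub_distrib, Finset.sum_const, hcard,
      ← Nat.cast_smul_eq_nsmul ℝ, smul_smul]
    congr 3
    ring
  rw [h3, norm_smul, Real.norm_eq_abs, abs_of_pos (by norm_num : (0 : ℝ) < 1 / 2)] at h2
  linarith

end transfer

section norms

variable {ι : Type} [Fintype ι]

/-- `‖x‖_q ≤ ‖x‖_p` for `0 < p ≤ q`. -/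
lemma lp_anti (x : ι → ℝ) {p q : ℝ} (hp : 0 < p) (hpq : p ≤ q) :
    (∑ i, |x i| ^ q) ^ (1 / q) ≤ (∑ i, |x i| ^ p) ^ (1 / p) := by
  have hq : 0 < q := hp.trans_le hpq
  set S : ℝ := ∑ i, |x i| ^ p with hS
  have hS0 : 0 ≤ S := Finset.sum_nonneg fun i _ => Real.rpow_nonneg (abs_nonneg _) _
  have h1 : ∀ i, |x i| ≤ S ^ (1 / p) := by
    intro i
    have h2 : |x i| ^ p ≤ S :=
      Finset.single_le_sum (f := fun i => |x i| ^ p)
        (fun i _ => Real.rpow_nonneg (abs_nonneg _) _) (Finset.mem_univ i)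
    have h3 := Real.rpow_le_rpow (Real.rpow_nonneg (abs_nonneg _) _) h2
      (by positivity : 0 ≤ 1 / p)
    rwa [← Real.rpow_mul (abs_nonneg _), mul_one_div_cancel hp.ne', Real.rpow_one] at h3
  have h4 : ∑ i, |x i| ^ q ≤ S ^ (q / p) := by
    calc ∑ i, |x i| ^ q ≤ ∑ i, |x i| ^ p * (S ^ (1 / p)) ^ (q - p) := by
          refine Finset.sum_le_sum fun i _ => ?_
          rcases eq_or_lt_of_le (abs_nonneg (x i)) with h0 | h0
          · rw [← h0, Real.zero_rpow hq.ne', Real.zero_rpow hp.ne', zero_mul]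
          · calc |x i| ^ q = |x i| ^ p * |x i| ^ (q - p) := by
                  rw [← Real.rpow_add h0]; congr 1; ring
              _ ≤ _ := mul_le_mul_of_nonneg_left
                  (Real.rpow_le_rpow h0.le (h1 i) (by linarith))
                  (Real.rpow_nonneg h0.le _)
      _ = S * (S ^ (1 / p)) ^ (q - p) := by rw [← Finset.sum_mul]
      _ = S ^ (q / p) := by
          rcases eq_or_lt_of_le hS0 with h0 | h0
          · rw [← h0, zero_mul, Real.zero_rpow (by positivity)]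
          · nth_rewrite 1 [← Real.rpow_one S]
            rw [← Real.rpow_mul hS0, ← Real.rpow_add h0]
            congr 1
            field_simp
            ring
  have h5 := Real.rpow_le_rpow
    (Finset.sum_nonneg fun i _ => Real.rpow_nonneg (abs_nonneg _) _) h4
    (by positivity : 0 ≤ 1 / q)
  rw [← Real.rpow_mul hS0] at h5
  convert h5 using 2
  field_simp

/-- `‖x‖_p ≤ n^(1/p - 1/q) ‖x‖_q` for `0 < p ≤ q`. -/
lemma lp_holder (x : ι → ℝ) {p q : ℝ} (hp : 0 < p) (hpq : p ≤ q) :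
    (∑ i, |x i| ^ p) ^ (1 / p) ≤
      (Fintype.card ι : ℝ) ^ (1 / p - 1 / q) * (∑ i, |x i| ^ q) ^ (1 / q) := by
  have hq : 0 < q := hp.trans_le hpq
  have h1 := Real.rpow_sum_le_const_mul_sum_rpow Finset.univ (fun i => |x i| ^ p)
    (p := q / p) ((one_le_div hp).2 hpq)
  have h2 : ∀ i, |(|x i| ^ p)| ^ (q / p) = |x i| ^ q := by
    intro i
    rw [abs_of_nonneg (Real.rpow_nonneg (abs_nonneg _) _), ← Real.rpow_mul (abs_nonneg _)]
    congr 1
    field_simp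
  have h3 : ∀ i, |(|x i| ^ p)| = |x i| ^ p := fun i =>
    abs_of_nonneg (Real.rpow_nonneg (abs_nonneg _) _)
  simp only [h2] at h1
  simp only [h3] at h1
  rw [Finset.card_univ] at h1
  have hS0 : 0 ≤ ∑ i, |x i| ^ p := Finset.sum_nonneg fun i _ => Real.rpow_nonneg (abs_nonneg _) _
  have hT0 : 0 ≤ ∑ i, |x i| ^ q := Finset.sum_nonneg fun i _ => Real.rpow_nonneg (abs_nonneg _) _
  have h5 := Real.rpow_le_rpow (Real.rpow_nonneg hS0 _) h1 (by positivity : 0 ≤ 1 / q)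
  rw [← Real.rpow_mul hS0, Real.mul_rpow (by positivity) hT0,
    ← Real.rpow_mul (Nat.cast_nonneg _)] at h5
  have e1 : q / p * (1 / q) = 1 / p := by field_simp
  have e2 : (q / p - 1) * (1 / q) = 1 / p - 1 / q := by field_simp
  rwa [e1, e2] at h5

end norms

section pilp

variable {d : ℕ}

/-- The identity `ℓ_p^d → ℓ_2^d`. -/
noncomputable def toE (p : ℝ≥0∞) (d : ℕ) [Fact (1 ≤ p)] :
    PiLp p (fun _ : Fin d => ℝ) →ₗ[ℝ] EuclideanSpace ℝ (Fin d) :=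
  ((WithLp.linearEquiv 2 ℝ (Fin d → ℝ)).symm.toLinearMap).comp
    (WithLp.linearEquiv p ℝ (Fin d → ℝ)).toLinearMap

lemma toE_apply (p : ℝ≥0∞) [Fact (1 ≤ p)] (x : PiLp p (fun _ : Fin d => ℝ)) (i : Fin d) :
    toE p d x i = x i := rfl

lemma norm_toE (p : ℝ≥0∞) [Fact (1 ≤ p)] (x : PiLp p (fun _ : Fin d => ℝ)) :
    ‖toE p d x‖ = (∑ i, |x i| ^ (2 : ℝ)) ^ (1 / (2 : ℝ)) := by
  rw [EuclideanSpace.norm_eq, Real.sqrt_eq_rpow]
  congr 1
  refine Finset.sum_congr rfl fun i _ => ?_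
  rw [toE_apply, Real.norm_eq_abs, Real.rpow_two]

lemma norm_lp (p : ℝ≥0∞) [Fact (1 ≤ p)] (hp : p ≠ ∞) (x : PiLp p (fun _ : Fin d => ℝ)) :
    ‖x‖ = (∑ i, |x i| ^ p.toReal) ^ (1 / p.toReal) := by
  have h1 : 0 < p.toReal :=
    ENNReal.toReal_pos (fun h => by have := Fact.out (p := 1 ≤ p); simp [h] at this) hp
  rw [PiLp.norm_eq_sum h1]
  simp only [Real.norm_eq_abs]

lemma toReal_ge_one {p : ℝ≥0∞} (hp1 : 1 ≤ p) (hp : p ≠ ∞) : 1 ≤ p.toReal := by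
  rw [← ENNReal.toReal_one]
  exact ENNReal.toReal_mono hp hp1

lemma toReal_le_two {p : ℝ≥0∞} (hp : p ≤ 2) : p.toReal ≤ 2 := by
  have := ENNReal.toReal_mono (by simp) hp
  simpa using this

lemma two_le_toReal {p : ℝ≥0∞} (hp : 2 ≤ p) (hp' : p ≠ ∞) : 2 ≤ p.toReal := by
  have := ENNReal.toReal_mono hp' hp
  simpa using this

lemma ne_top_of_le_two {p : ℝ≥0∞} (hp : p ≤ 2) : p ≠ ∞ :=
  (hp.trans_lt (by simp)).ne

/-- `p ≤ 2`: `‖x‖_2 ≤ ‖x‖_p`. -/
lemma le2_a {p : ℝ≥0∞} [hp1 : Fact (1 ≤ p)] (hp : p ≤ 2) (x : PiLp p (fun _ : Fin d => ℝ)) :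
    ‖toE p d x‖ ≤ ‖x‖ := by
  have ht := ne_top_of_le_two hp
  rw [norm_toE, norm_lp p ht]
  have := toReal_ge_one hp1.out ht
  exact lp_anti _ (by linarith) (toReal_le_two hp)

/-- `p ≤ 2`: `‖x‖_p ≤ d^(1/p - 1/2) ‖x‖_2`. -/
lemma le2_b {p : ℝ≥0∞} [hp1 : Fact (1 ≤ p)] (hp : p ≤ 2) (x : PiLp p (fun _ : Fin d => ℝ)) :
    ‖x‖ ≤ (d : ℝ) ^ (1 / p.toReal - 1 / 2) * ‖toE p d x‖ := by
  have ht := ne_top_of_le_two hp
  rw [norm_toE, norm_lp p ht]
  have := toReal_ge_one hp1.out ht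
  have h := lp_holder (fun i => x i) (by linarith : 0 < p.toReal) (toReal_le_two hp)
  rwa [Fintype.card_fin] at h

/-- `2 ≤ p`: `‖x‖_p ≤ ‖x‖_2`. -/
lemma ge2_a {p : ℝ≥0∞} [hp1 : Fact (1 ≤ p)] (hp : 2 ≤ p) (x : PiLp p (fun _ : Fin d => ℝ)) :
    ‖x‖ ≤ ‖toE p d x‖ := by
  by_cases ht : p = ∞
  · subst ht
    rw [PiLp.norm_eq_ciSup]
    refine Real.iSup_le (fun i => ?_) (norm_nonneg _)
    have h := PiLp.norm_apply_le (toE ∞ d x) i
    rwa [toE_apply] at h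
  · rw [norm_toE, norm_lp p ht]
    exact lp_anti _ (by norm_num) (two_le_toReal hp ht)

/-- `2 ≤ p`: `‖x‖_2 ≤ d^(1/2 - 1/p) ‖x‖_p`. -/
lemma ge2_b {p : ℝ≥0∞} [hp1 : Fact (1 ≤ p)] (hp : 2 ≤ p) (x : PiLp p (fun _ : Fin d => ℝ)) :
    ‖toE p d x‖ ≤ (d : ℝ) ^ (1 / 2 - 1 / p.toReal) * ‖x‖ := by
  by_cases ht : p = ∞
  · subst ht
    rw [ENNReal.toReal_top, div_zero, sub_zero, ← Real.sqrt_eq_rpow, EuclideanSpace.norm_eq]
    have h1 : ∀ i, ‖(toE ∞ d x) i‖ ^ 2 ≤ ‖x‖ ^ 2 := by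
      intro i
      rw [toE_apply]
      have h := PiLp.norm_apply_le x i
      exact pow_le_pow_left₀ (norm_nonneg _) h 2
    have h2 : ∑ i, ‖(toE ∞ d x) i‖ ^ 2 ≤ d * ‖x‖ ^ 2 := by
      refine (Finset.sum_le_sum fun i _ => h1 i).trans ?_
      simp
    refine (Real.sqrt_le_sqrt h2).trans ?_
    rw [Real.sqrt_mul (Nat.cast_nonneg _), Real.sqrt_sq (norm_nonneg _)]
  · rw [norm_toE, norm_lp p ht]
    have h := lp_holder (fun i => x i) (by norm_num : (0 : ℝ) < 2) (two_le_toReal hp ht)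
    rwa [Fintype.card_fin] at h

/-- Bounds for `ℓ_p^d`, `p ≤ 2`, from bounds for `ℓ_2^d`. -/
lemma steinitz_le2 {p : ℝ≥0∞} [hp1 : Fact (1 ≤ p)] (hp : p ≤ 2) :
    steinitz (PiLp p (fun _ : Fin d => ℝ)) ≤
      ENNReal.ofReal ((d : ℝ) ^ (1 / p.toReal - 1 / 2)) * steinitz (EuclideanSpace ℝ (Fin d)) :=
  steinitz_le_of_map (toE p d) (by positivity) (le2_a hp) (le2_b hp)

lemma signed_le2 {p : ℝ≥0∞} [hp1 : Fact (1 ≤ p)] (hp : p ≤ 2) :
    signed (PiLp p (fun _ : Fin d => ℝ)) ≤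
      ENNReal.ofReal ((d : ℝ) ^ (1 / p.toReal - 1 / 2)) * signed (EuclideanSpace ℝ (Fin d)) :=
  signed_le_of_map (toE p d) (by positivity) (le2_a hp) (le2_b hp)

/-- The rescaled identity. -/
lemma scaled {p : ℝ≥0∞} [hp1 : Fact (1 ≤ p)] (hd : 1 ≤ d) (hp : 2 ≤ p) :
    (∀ x, ‖(((d : ℝ) ^ (1 / 2 - 1 / p.toReal))⁻¹ • toE p d) x‖ ≤ ‖x‖) ∧
    (∀ x, ‖x‖ ≤ (d : ℝ) ^ (1 / 2 - 1 / p.toReal) *
      ‖(((d : ℝ) ^ (1 / 2 - 1 / p.toReal))⁻¹ • toE p d) x‖) := by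
  have hd0 : (0 : ℝ) < d := by exact_mod_cast hd
  have hA : 0 < (d : ℝ) ^ (1 / 2 - 1 / p.toReal) := by positivity
  have e : ∀ x, ‖(((d : ℝ) ^ (1 / 2 - 1 / p.toReal))⁻¹ • toE p d) x‖
      = ((d : ℝ) ^ (1 / 2 - 1 / p.toReal))⁻¹ * ‖toE p d x‖ := by
    intro x
    rw [LinearMap.smul_apply, norm_smul, Real.norm_eq_abs, abs_of_pos (inv_pos.2 hA)]
  refine ⟨fun x => ?_, fun x => ?_⟩
  · rw [e, inv_mul_le_iff₀ hA]
    exact ge2_b hp x
  · rw [e, ← mul_assoc, mul_inv_cancel₀ hA.ne', one_mul]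
    exact ge2_a hp x

lemma steinitz_ge2 {p : ℝ≥0∞} [hp1 : Fact (1 ≤ p)] (hd : 1 ≤ d) (hp : 2 ≤ p) :
    steinitz (PiLp p (fun _ : Fin d => ℝ)) ≤
      ENNReal.ofReal ((d : ℝ) ^ (1 / 2 - 1 / p.toReal)) * steinitz (EuclideanSpace ℝ (Fin d)) :=
  steinitz_le_of_map _ (by positivity) (scaled hd hp).1 (scaled hd hp).2

lemma signed_ge2 {p : ℝ≥0∞} [hp1 : Fact (1 ≤ p)] (hd : 1 ≤ d) (hp : 2 ≤ p) :
    signed (PiLp p (fun _ : Fin d => ℝ)) ≤
      ENNReal.ofReal ((d : ℝ) ^ (1 / 2 - 1 / p.toReal)) * signed (EuclideanSpace ℝ (Fin d)) :=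
  signed_le_of_map _ (by positivity) (scaled hd hp).1 (scaled hd hp).2

end pilp

end Vale.Agent.P262.H691
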